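import Vale.Agent.P213.Trans
import Vale.Agent.P213.Unit

open CategoryTheory SSet

namespace Vale.Agent.Results.P213.Thomason

open Vale.Agent.P213

theorem result (n : ℕ∞) (hn : 1 ≤ n) :
    IsModel (MorphismProperty.monomorphisms SSet.{0}) WHE KanFib ∧
    IsModel (Cn n) (Wn n) (Fn n) ∧ (streetNerve n).IsRightAdjoint ∧
    ∀ (c : SSet.{0} ⥤ NCat n) (adj : c ⊣ streetNerve n),
      (∀ (K K' : SSet.{0}) (i : K ⟶ K'), Mono i → Cn n ((sd ⋙ sd ⋙ c).map i) ∧
        (WHE i → Wn n ((sd ⋙ sd ⋙ c).map i))) ∧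
      ∀ (K : SSet.{0}) (X : NCat n) (f : (sd ⋙ sd ⋙ c).obj K ⟶ X),
        Wn n f ↔ WHE ((sdExAdjunction.comp (sdExAdjunction.comp adj)).homEquiv K X f) := by
  refine ⟨isModel_sset, isModel_ncat hn, streetNerve_isRightAdjoint n, fun c adj =>
    ⟨fun K K' i _ => ⟨cn_map adj i, fun hi => ?_⟩, fun K X f => ?_⟩⟩
  · have h1 : WHE (sd.map (sd.map i)) := (whe_sd_iff _).2 ((whe_sd_iff _).2 hi)
    have h2 := adj.unit.naturality (sd.map (sd.map i))
    refine WHE.of_precomp _ _ (whe_unit hn adj K) ?_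
    exact (congrArg _ h2).mp (WHE.comp_mem _ _ h1 (whe_unit hn adj K'))
  · have e : (sdExAdjunction.comp (sdExAdjunction.comp adj)).homEquiv K X f =
        sdExAdjunction.homEquiv _ _ (sdExAdjunction.homEquiv _ _ (adj.homEquiv _ _ f)) := by
      simp only [Adjunction.comp_homEquiv]
      rfl
    rw [e, whe_homEquiv, whe_homEquiv, adj.homEquiv_unit]
    exact ⟨fun h => WHE.comp_mem _ _ (whe_unit hn adj K) h,
      fun h => WHE.of_precomp _ _ (whe_unit hn adj K) h⟩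

end Vale.Agent.Results.P213.Thomason
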